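import Vale.Agent.P233G30.Rows
import Mathlib.MeasureTheory.Function.Holder

/-! P233G, row TE: the tangent module exists. -/

set_option linter.all false

open MeasureTheory Filter Topology Set
open scoped ENNReal NNReal InnerProductSpace

universe u

namespace Vale.Agent.P233G49

open Vale.Agent.P233 Vale.Agent.P233G

variable {M : Type u} [MetricSpace M] [MeasurableSpace M] {m : Measure M}

/-- multiplication by a bounded function -/
noncomputable def mulL {a : L0 m} (ha : MemLp a ∞ m) : Lp E1 2 m →L[ℝ] Lp E1 2 m :=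
  (ContinuousLinearMap.lsmul ℝ ℝ : ℝ →L[ℝ] E1 →L[ℝ] E1).holderL m ∞ 2 2 (ha.toLp a)

theorem mulL_ae {a : L0 m} (ha : MemLp a ∞ m) (X : Lp E1 2 m) :
    ∀ᵐ x ∂m, mulL ha X x = a x • X x := by
  have h := (ContinuousLinearMap.lsmul ℝ ℝ : ℝ →L[ℝ] E1 →L[ℝ] E1).coeFn_holder (r := 2)
    (ha.toLp a) X
  filter_upwards [h, ha.coeFn_toLp] with x h1 h2
  change ((ContinuousLinearMap.lsmul ℝ ℝ : ℝ →L[ℝ] E1 →L[ℝ] E1).holder 2 (ha.toLp a) X) x = _
  rw [h1, h2]
  rfl

theorem mem_mul {a b : L0 m} (ha : MemLp a ∞ m) (hb : MemLp b ∞ m) :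
    MemLp (a * b : L0 m) ∞ m := by
  have h : MemLp ((a : M → ℝ) • (b : M → ℝ)) ∞ m := hb.smul ha
  refine h.ae_eq ?_
  filter_upwards [mul_ae a b] with x hx
  rw [hx]
  rfl

theorem mem_one : MemLp (1 : L0 m) ∞ m :=
  (memLp_top_const (1 : ℝ)).ae_eq (one_ae (M := M) (m := m)).symm

theorem mulL_mulL {a b : L0 m} (ha : MemLp a ∞ m) (hb : MemLp b ∞ m) (X : Lp E1 2 m) :
    mulL ha (mulL hb X) = mulL (mem_mul ha hb) X := by
  refine Lp.ext ?_
  filter_upwards [mulL_ae ha (mulL hb X), mulL_ae hb X, mulL_ae (mem_mul ha hb) X, mul_ae a b]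
    with x h1 h2 h3 h4
  rw [h1, h2, h3, h4, mul_smul]

theorem mulL_one (X : Lp E1 2 m) : mulL (mem_one (m := m)) X = X := by
  refine Lp.ext ?_
  filter_upwards [mulL_ae (mem_one (m := m)) X, one_ae (M := M) (m := m)] with x h1 h2
  rw [h1, h2, one_smul]

variable {Gr : L0 m → M → E1} (hG : IsGrad (sob m) Gr)

open Classical in
/-- the gradient as an element of `L²` -/
noncomputable def gr (f : L0 m) : Lp E1 2 m :=
  if h : f ∈ (sob m).W then (hG.mem f h).toLp _ else 0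

theorem gr_ae {f : L0 m} (hf : f ∈ (sob m).W) : ∀ᵐ x ∂m, gr hG f x = Gr f x := by
  unfold gr
  rw [dif_pos hf]
  exact (hG.mem f hf).coeFn_toLp

/-- the generators -/
def gens : Set (Lp E1 2 m) :=
  {X | ∃ (a f : L0 m) (ha : MemLp a ∞ m), f ∈ (sob m).W ∧ X = mulL ha (gr hG f)}

/-- the tangent module -/
noncomputable def K : Submodule ℝ (Lp E1 2 m) := (Submodule.span ℝ (gens hG)).topologicalClosure

theorem mul_mem {a : L0 m} (ha : MemLp a ∞ m) {X : Lp E1 2 m} (hX : X ∈ K hG) :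
    mulL ha X ∈ K hG := by
  have h1 : Submodule.span ℝ (gens hG) ≤ (K hG).comap (mulL ha).toLinearMap := by
    rw [Submodule.span_le]
    rintro _ ⟨b, f, hb, hf, rfl⟩
    change mulL ha (mulL hb (gr hG f)) ∈ K hG
    rw [mulL_mulL]
    exact Submodule.le_topologicalClosure _ (Submodule.subset_span ⟨_, f, _, hf, rfl⟩)
  have h2 : IsClosed ((K hG).comap (mulL ha).toLinearMap : Set (Lp E1 2 m)) :=
    (Submodule.isClosed_topologicalClosure _).preimage (mulL ha).continuous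
  exact Submodule.topologicalClosure_minimal _ h1 h2 hX

theorem gr_mem (f : L0 m) : gr hG f ∈ K hG := by
  by_cases hf : f ∈ (sob m).W
  · rw [← mulL_one (gr hG f)]
    exact Submodule.le_topologicalClosure _ (Submodule.subset_span ⟨_, f, _, hf, rfl⟩)
  · unfold gr
    rw [dif_neg hf]
    exact (K hG).zero_mem

open Classical in
/-- the action of bounded functions -/
noncomputable def smK (a : L0 m) (X : K hG) : K hG :=
  if ha : MemLp a ∞ m then ⟨mulL ha X.1, mul_mem hG ha X.2⟩ else 0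

theorem smK_val {a : L0 m} (ha : MemLp a ∞ m) (X : K hG) : (smK hG a X).1 = mulL ha X.1 := by
  unfold smK
  rw [dif_pos ha]

theorem ip_ae (X Y : Lp E1 2 m) : ∀ᵐ x ∂m, ipE m X Y x = ⟪X x, Y x⟫_ℝ :=
  ipE_ae (Lp.aestronglyMeasurable X) (Lp.aestronglyMeasurable Y)

theorem te : TE.{u} := by
  intro M _ _ _ _ U m κ Gr hc
  have hG := hc.hG
  have hw : ∀ f : L0 m, W U m f ↔ f ∈ (sob m).W := fun f => by
    rw [mem_sob_iff]
    exact exists_congr fun G => hc.hU f G
  refine ⟨K hG, inferInstance, inferInstance, ⟨{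
    sm := smK hG
    ip := fun X Y => ipE m X.1 Y.1
    grad := fun f => ⟨gr hG f, gr_mem hG f⟩
    complete := (Submodule.isClosed_topologicalClosure _).completeSpace_coe
    int := fun X Y => ⟨?_, ?_⟩
    symm := fun X Y => ?_
    ip_sm := fun a ha X Y => ?_
    lin := fun f g hf hg c => ?_
    norm := fun f S hS => ?_
    gen := ?_ }⟩⟩
  · exact memLp_one_iff_integrable.1 (ipE_mem (Lp.memLp X.1) (Lp.memLp Y.1))
  · rw [Submodule.coe_inner, L2.inner_def]
    exact integral_congr_ae ((ip_ae X.1 Y.1).mono fun x hx => hx.symm)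
  · rw [eq_iff_ae]
    filter_upwards [ip_ae X.1 Y.1, ip_ae Y.1 X.1] with x h1 h2
    rw [h1, h2, real_inner_comm]
  · rw [eq_iff_ae, smK_val hG ha]
    filter_upwards [ip_ae (mulL ha X.1) Y.1, ip_ae X.1 Y.1, mulL_ae ha X.1,
      mul_ae a (ipE m X.1 Y.1)] with x h1 h2 h3 h4
    rw [h1, h3, h4, h2, real_inner_smul_left]
  · have hf' := (hw f).1 hf
    have hg' := (hw g).1 hg
    have hcg := hc.hC.smul_mem c g hg'
    refine Subtype.ext (Lp.ext ?_)
    change ⇑(gr hG (f + c • g)) =ᵐ[m] ⇑(gr hG f + c • gr hG g)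
    filter_upwards [gr_ae hG (hc.hC.add_mem f hf' _ hcg), gr_ae hG hf', gr_ae hG hg',
      hG.add hc.hC.toIsDir hf' hcg, hG.smul hc.hC.toIsDir c hg',
      Lp.coeFn_add (gr hG f) (c • gr hG g), Lp.coeFn_smul c (gr hG g)] with x h1 h2 h3 h4 h5 h6 h7
    rw [h1, h4, h5, h6, Pi.add_apply, h7, Pi.smul_apply, h2, h3]
  · have hf : f ∈ (sob m).W := (hw f).1 ⟨S, hS.1⟩
    have hm : Met.RMin m f S := ⟨(hc.hU _ _).1 hS.1, fun G hG' => hS.2 G ((hc.hU _ _).2 hG')⟩
    filter_upwards [ip_ae (gr hG f) (gr hG f), gr_ae hG hf, hG.inner f hf f hf,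
      sob_Γ_self_ae hf, hm.eq] with x h1 h2 h3 h4 h5
    change ipE m (gr hG f) (gr hG f) x = _
    rw [h1, h2, h3, h4, h5]
  · rw [Subtype.dense_iff]
    refine closure_mono ?_
    intro X hX
    have h1 : Submodule.span ℝ (gens hG) ≤ (Submodule.span ℝ
        {X : K hG | ∃ a f : L0 m, MemLp a ∞ m ∧ W U m f ∧
          X = smK hG a ⟨gr hG f, gr_mem hG f⟩}).map (K hG).subtype := by
      rw [Submodule.span_le]
      rintro _ ⟨a, f, ha, hf, rfl⟩
      exact ⟨smK hG a ⟨gr hG f, gr_mem hG f⟩,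
        Submodule.subset_span ⟨a, f, ha, (hw f).2 hf, rfl⟩, smK_val hG ha _⟩
    exact h1 hX

end Vale.Agent.P233G49
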